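import Vale.Agent.P270F.Tk.Mix
import Vale.Agent.P285W.O.Case

/-!
# Null classes for a nef class of numerical dimension `ν`, in all dimensions
-/

open Set Filter Function
open Vale.Agent.P272.K Vale.Agent.P285.H281.FD Vale.Agent.P281Z Vale.Agent.P280Z
open Vale.Agent.P285W Vale.Agent.P285W.J Vale.Agent.P285W.Bs Vale.Agent.P285S.B2
open Vale.Agent.P285S.E3 (T1)
open Vale.Agent.P285S.E3.HilH

noncomputable section

namespace Vale.Agent.P270F.Tk

/-- `g` dominates a Kähler class -/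
def Dm (T : CT) {n : ℕ} (V : Mf n) (g : T.H V) : Prop := ∃ a, T.Kc V a ∧ Le T V a g

variable {T : CT} (hT : T.OK) {n ν k j : ℕ} {V : Mf n} {l g h q p x e a : T.H V}

include hT

omit hT in
theorem dm_kc (ha : T.Kc V a) : Dm T V a := ⟨a, ha, Le.refl⟩

/-- weakly null is null -/
theorem zr_dm (hg : Nf T V g) (hb : Dm T V g) (hx : Mn T V x) (hd : T.Dg V k x) (hj : k + j = n)
    (h0 : T.int V (x * g ^ j) = 0) : Zr T V x := by
  obtain ⟨a, ha, k⟩ := hb
  simpa using zr_of hT (e := 1) ha (fun y hy => by simpa using mn_int hT hy) hx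
    (by simpa using hd) hj (by
      rw [one_mul, mul_comm]
      exact domp hT k (kc_nf hT ha) hg j hx (by rwa [mul_comm]))

theorem pos_dm (hg : Nf T V g) (hb : Dm T V g) (hx : Mn T V x) (hd : T.Dg V k x) (hj : k + j = n)
    (h0 : ¬ Zr T V x) : 0 < T.int V (x * g ^ j) :=
  (mn_int hT (hx.mul (hg.mn.pow j))).lt_of_ne' fun c => h0 (zr_dm hT hg hb hx hd hj c)

omit hT in
theorem zr_mul {y : T.H V} (h : Zr T V x) (hy : Mn T V y) : Zr T V (x * y) := fun z hz => by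
  rw [mul_assoc]
  exact h _ (hy.mul hz)

omit hT in
theorem nz_le (hl : Nf T V l) (h : ¬ Zr T V (l ^ ν)) (hk : k ≤ ν) : ¬ Zr T V (l ^ k) := fun c =>
  h (by rw [← Nat.add_sub_cancel' hk, pow_add]; exact zr_mul c (hl.mn.pow _))

theorem nu_le (hl : Nf T V l) (h : ¬ Zr T V (l ^ ν)) : ν ≤ n := not_lt.1 fun c => h fun y _ => by
  rw [dg_zero hT (dg_pow hT (nf_dg hT hl) ν) c, zero_mul, map_zero]

/-- **H1**: a nef class which is killed by a small power of `l` vanishes -/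
theorem eq_zero (hV : Cp V) (hl : Nq T V l) (hh : Nf T V h) (hn : 2 ≤ n)
    (h0 : ¬ Zr T V (l ^ (ν + 1))) (h1 : Zr T V (h * l ^ ν)) : h = 0 := by
  obtain ⟨a, ha, ba⟩ := ample hT hV.prj
  have na := kc_nf hT ha
  induction ν with
  | zero =>
    obtain ⟨d, rfl⟩ : ∃ d, n = d + 2 := ⟨n - 2, by omega⟩
    exact hod hT hV.conn ha (nf_ty hT hh) (nf_dg hT hh) (by simpa using h1 _ (na.mn.pow (d + 1)))
      (mn_int hT ((hh.mn.mul hh.mn).mul (na.mn.pow d)))
  | succ ν ih =>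
    obtain ⟨j, rfl⟩ := Nat.exists_eq_add_of_le (nu_le hT hl.1 h0)
    have m := (hl.mz.pow ν).mul ((nq_bf hT ba).mz.pow j)
    refine ih (nz_le hl.1 h0 (by omega)) (zr_dm hT na (dm_kc ha) (hh.mn.mul (hl.1.mn.pow ν))
      (dg_mul hT (nf_dg hT hh) (dg_pow hT (nf_dg hT hl.1) ν)) (j := j + 1) (by omega) ?_)
    rw [← ker hT hV m (hl.t1 hT) (nf_t1 hT hh) (nf_t1 hT na) (by
        simpa only [pow_succ', mul_assoc] using pos_dm hT na (dm_kc ha) (hl.1.mn.pow _)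
          (dg_pow hT (nf_dg hT hl.1) _) rfl h0)
      (by rw [← h1 _ (na.mn.pow j)]; congr 1; ring) (mn_int hT ((hh.mn.mul hh.mn).mul m.mn))]
    congr 1
    ring

/-- **H2a** -/
theorem sq_zero (hV : Cp V) (hl : Nq T V l) (hh : Nf T V h) (hν : Nu T V l (ν + 1))
    (hn : ν + 1 < n) (h1 : Zr T V (h * l ^ (ν + 1))) : Zr T V (h * h * l ^ ν) := by
  obtain ⟨a, ha, ba⟩ := ample hT hV.prj
  have na := kc_nf hT ha
  obtain ⟨j, rfl⟩ := Nat.exists_eq_add_of_lt hn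
  have m := (hl.mz.pow ν).mul ((nq_bf hT ba).mz.pow j)
  have m2 := (hh.mn.mul hh.mn).mul (hl.1.mn.pow ν)
  refine zr_dm hT na (dm_kc ha) m2 (dg_mul hT (dg_mul hT (nf_dg hT hh) (nf_dg hT hh))
    (dg_pow hT (nf_dg hT hl.1) ν)) (j := j) (by omega)
    ((mn_int hT (m2.mul (na.mn.pow j))).antisymm' ?_)
  rw [mul_assoc _ (l ^ ν)]
  refine iso hT hV m (nf_t1 hT hh) (hl.t1 hT) (nf_t1 hT na) ?_ ?_ ?_
  · rw [← hν.2 _ (na.mn.pow j)]; congr 1; ring
  · rw [← h1 _ (na.mn.pow j)]; congr 1; ring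
  · refine ne_of_gt ((pos_dm hT na (dm_kc ha) (hl.1.mn.pow _) (dg_pow hT (nf_dg hT hl.1) _)
      (j := j + 1) (by omega) hν.1).trans_eq ?_)
    congr 1; ring

/-- **H2b**: weakly null classes are weakly null on the members of a null class -/
theorem weak (hV : Cp V) (hl : Nq T V l) (hg : Nq T V g) (hb : Dm T V g) (hh : Nf T V h)
    (hν : Nu T V l (ν + 1)) (hn : ν + 1 + j + 1 = n) (h1 : Zr T V (h * l ^ (ν + 1)))
    (he : T1 T V e) (h2 : T.int V (e * (l ^ (ν + 1) * g ^ j)) = 0) :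
    T.int V (e * (h * (l ^ ν * g ^ j))) = 0 := by
  have m := (hl.mz.pow ν).mul (hg.mz.pow j)
  have k := prp hT hV m (hl.t1 hT) (nf_t1 hT hh) he (hg.t1 hT)
    (by rw [← hν.2 _ (hg.1.mn.pow j)]; congr 1; ring)
    (by rw [← h1 _ (hg.1.mn.pow j)]; congr 1; ring)
    (by rw [← sq_zero hT hV hl hh hν (by omega) h1 _ (hg.1.mn.pow j), mul_assoc _ (l ^ ν)])
  have k1 := pos_dm hT hg.1 hb (hl.1.mn.pow _) (dg_pow hT (nf_dg hT hl.1) _) (j := j + 1)
    (by omega) hν.1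
  rw [show l * e * (l ^ ν * g ^ j) = e * (l ^ (ν + 1) * g ^ j) by ring, h2, zero_mul,
    show l * g * (l ^ ν * g ^ j) = l ^ (ν + 1) * g ^ (j + 1) by ring] at k
  rw [← (mul_eq_zero.1 k.symm).resolve_left k1.ne']
  congr 1
  ring

/-- **H3**: a nef null class which dominates `l` has the same numerical dimension -/
theorem nu_dom (hV : Cp V) (hl : Nq T V l) (hq : Nq T V q) (hd : Le T V l q) (hν : Nu T V l ν)
    (h1 : Zr T V (q * l ^ ν)) : Nu T V q ν := by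
  have lo : ∀ i k, Zr T V (q ^ i * l ^ k) → Zr T V (l ^ (i + k)) := fun i k c y hy => by
    rw [pow_add, mul_assoc]
    exact domp hT hd hl.1 hq.1 i ((hl.1.mn.pow k).mul hy) (mul_assoc (q ^ i) _ y ▸ c y hy)
  refine ⟨fun c => hν.1 (lo ν 0 (by simpa using c)), ?_⟩
  rcases (nu_le hT hl.1 hν.1).eq_or_lt with rfl | hn
  · intro y _
    rw [dg_zero hT (dg_pow hT (nf_dg hT hq.1) _) ν.lt_succ_self, zero_mul, map_zero]
  obtain ⟨a, ha, ba⟩ := ample hT hV.prj
  have na := kc_nf hT ha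
  obtain ⟨j, rfl⟩ := Nat.exists_eq_add_of_lt hn
  have key : ∀ i k, i + k = ν → Zr T V (q ^ i * l ^ (k + 1)) ∧ Zr T V (q ^ (i + 1) * l ^ k) := by
    intro i
    induction i with
    | zero =>
      rintro k rfl
      simpa using ⟨by simpa using hν.2, by simpa using h1⟩
    | succ i ih =>
      intro k e
      obtain ⟨k1, k2⟩ := ih (k + 1) (by omega)
      have m := ((hq.mz.pow i).mul (hl.mz.pow k)).mul ((nq_bf hT ba).mz.pow j)
      have m2 := (hq.1.mn.pow (i + 1 + 1)).mul (hl.1.mn.pow k)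
      refine ⟨k2, zr_dm hT na (dm_kc ha) m2 (dg_mul hT (dg_pow hT (nf_dg hT hq.1) _)
        (dg_pow hT (nf_dg hT hl.1) k)) (j := j) (by omega)
        ((mn_int hT (m2.mul (na.mn.pow j))).antisymm' ?_)⟩
      refine le_of_eq_of_le ?_ (iso hT hV m (hq.t1 hT) (hl.t1 hT) (nf_t1 hT na) ?_ ?_ ?_)
      · congr 1; ring
      · rw [← k1 _ (na.mn.pow j)]; congr 1; ring
      · rw [← k2 _ (na.mn.pow j)]; congr 1; ring
      · refine ne_of_gt ((pos_dm hT na (dm_kc ha) ((hq.1.mn.pow i).mul (hl.1.mn.pow (k + 1)))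
          (dg_mul hT (dg_pow hT (nf_dg hT hq.1) _) (dg_pow hT (nf_dg hT hl.1) _)) (j := j + 1)
          (by omega) fun c => hν.1 ?_).trans_eq ?_)
        · have := lo _ _ c
          rwa [show i + (k + 1) = ν by omega] at this
        · congr 1; ring
  simpa using (key ν 0 rfl).2

/-- **NUQ** in all dimensions, with the weak nullity of `e` -/
theorem nuq {δ : ℝ} (hV : Cp V) (hl : Nq T V l) (hg : Nf T V g) (hb : Dm T V g) (hν : Nu T V l ν)
    (hn : ν + j + 1 = n) (hδ : 0 < δ) (he : Ef T V e) (h1 : T.int V (e * (l ^ ν * g ^ j)) = 0)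
    (hq : Nq T V (δ • l + e)) : Nu T V (δ • l + e) ν := by
  refine nu_dom hT hV hl hq ⟨δ⁻¹, (inv_pos.2 hδ).le, fun y hy => ?_⟩ hν (zr_dm hT hg hb
    (hq.1.mn.mul (hl.1.mn.pow ν)) (dg_mul hT (nf_dg hT hq.1) (dg_pow hT (nf_dg hT hl.1) ν))
    (j := j) (by omega) ?_)
  · rw [add_mul, smul_mul_assoc, map_add, map_smul, smul_eq_mul, mul_add,
      inv_mul_cancel_left₀ hδ.ne']
    exact le_add_of_nonneg_right (mul_nonneg (inv_pos.2 hδ).le (ef_int hT he hy))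
  · rw [mul_assoc, add_mul, smul_mul_assoc, map_add, map_smul, h1, ← mul_assoc, ← pow_succ',
      hν.2 _ (hg.mn.pow j), smul_zero, add_zero]

end Vale.Agent.P270F.Tk
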