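import Vale.Agent.P285S.E3.Hil
import Vale.Agent.P285S.Bs2.Ends

/-!
# The mixed index theorem for nef classes of line bundles
-/

open scoped Topology
open Set Filter Function
open Vale.Agent.P272.K Vale.Agent.P285.H281.FD Vale.Agent.P281Z Vale.Agent.P280Z
open Vale.Agent.P285W Vale.Agent.P285W.J Vale.Agent.P285W.Bs Vale.Agent.P285S.B2
open Vale.Agent.P285W.O (Zc)
open Vale.Agent.P285S.E3 (T1)
open Vale.Agent.P285S.E3.HilH

noncomputable section

namespace Vale.Agent.P270F.Tk

/-- nef classes of line bundles -/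
def Nq (T : CT) {n : ℕ} (V : Mf n) (x : T.H V) : Prop := Nf T V x ∧ Zc T V x

/-- products of such classes -/
def Mz (T : CT) {n : ℕ} (V : Mf n) (y : T.H V) : Prop := y ∈ Submonoid.closure {x | Nq T V x}

variable {T : CT} {n m : ℕ} {V : Mf n} {U : Mf m} {x y z u v p t t' : T.H V}

theorem Nq.mz (h : Nq T V x) : Mz T V x := Submonoid.subset_closure h

theorem Mz.mul (h : Mz T V x) (k : Mz T V y) : Mz T V (x * y) := mul_mem h k

theorem Mz.pow (h : Mz T V x) (k : ℕ) : Mz T V (x ^ k) := pow_mem h k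

theorem Mz.mn (h : Mz T V x) : Mn T V x := Submonoid.closure_mono (fun _ k => k.1) h

variable (hT : T.OK)

include hT

theorem Nq.pull (h : Nq T V x) {f : U.X → V.X} (hf : HolM m n f) : Nq T U (T.pull hf x) :=
  ⟨nf_pull hT hf h.1, h.2.elim fun D k => ⟨_, hf.lb k.1, k.2 ▸ hT.c1.pull hf D k.1⟩⟩

theorem nq_bf (h : Bf T V x) : Nq T V x := ⟨bf_nf hT h, h.imp fun _ k => ⟨k.1, k.2.2⟩⟩

theorem Nq.t1 (h : Nq T V x) : T1 T V x := nf_t1 hT h.1

theorem t1_pull (h : T1 T V x) {f : U.X → V.X} (hf : HolM m n f) : T1 T U (T.pull hf x) :=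
  ⟨hT.tp.pull hf h.1, dg_pull hT hf h.2⟩

theorem dg_list (l : List (T.H V)) (h : ∀ x ∈ l, Nq T V x) : T.Dg V l.length l.prod := by
  induction l with
  | nil => simpa using hT.rg.dg_one V
  | cons a l ih =>
    rw [List.prod_cons, List.length_cons, add_comm]
    exact dg_mul hT (nf_dg hT (h a (by simp)).1) (ih fun x k => h x (by simp [k]))

theorem mix0 (d : ℕ) : ∀ (V : Mf (d + 2)) (l : List (T.H V)) (u v : T.H V), Cp V → l.length = d →
    (∀ x ∈ l, Nq T V x) → T1 T V u → T1 T V v → 0 < T.int V (u * u * l.prod) →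
    T.int V (u * u * l.prod) * T.int V (v * v * l.prod) ≤ T.int V (u * v * l.prod) ^ 2 := by
  induction d with
  | zero =>
    intro V l u v hV hl _ hu hv
    obtain ⟨a, ha, -⟩ := ample hT hV.prj
    rw [List.length_eq_zero_iff.1 hl]
    simpa using nef hT (d := 0) hV (kc_nf hT ha) hu hv
  | succ d ih =>
    intro V l u v hV hl h hu hv h0
    obtain ⟨w, l, rfl⟩ := List.exists_cons_of_length_eq_add_one hl
    obtain ⟨a, ha, A, lA, -, rfl⟩ := ample hT hV.prj
    obtain ⟨hw, W, lW, rfl⟩ := h w (by simp)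
    have e : ∀ (c : T.H V) (ε : ℝ), T.int V (c * ((T.c1 V W + ε • T.c1 V A) * l.prod)) =
        ε * T.int V (c * (T.c1 V A * l.prod)) + T.int V (c * (T.c1 V W * l.prod)) := fun c ε => by
      rw [add_mul, mul_add, smul_mul_assoc, mul_smul_comm, map_add, map_smul, add_comm]
      rfl
    have s : ∀ c : T.H V, Tendsto (fun k : ℕ => T.int V (c * ((T.c1 V W +
        (1 / ((k : ℝ) + 1)) • T.c1 V A) * l.prod))) atTop
          (𝓝 (T.int V (c * (T.c1 V W * l.prod)))) := fun c => by
      simp only [e]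
      simpa only [zero_mul, zero_add] using (tendsto_one_div_add_atTop_nhds_zero_nat.mul_const
        (T.int V (c * (T.c1 V A * l.prod)))).add_const (T.int V (c * (T.c1 V W * l.prod)))
    rw [List.prod_cons] at h0 ⊢
    refine le_of_tendsto_of_tendsto ((s _).mul (s _)) ((s _).pow 2) ?_
    filter_upwards [(s _).eventually (lt_mem_nhds h0)] with k hk
    have l1 := lb_mul lA (lb_pow lW (k + 1))
    have c1 : T.c1 V (A.mul (W.pow (k + 1))) = T.c1 V A + ((k + 1 : ℕ) : ℝ) • T.c1 V W := by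
      rw [hT.c1.mul V _ _ lA (lb_pow lW _), hT.c1.pow V _ _ lW]
    have k1 := c1 ▸ kc_nf_add hT ha (nf_smul hT (k + 1 : ℕ).cast_nonneg hw)
    obtain ⟨r, hr⟩ := DescX.bpf l1 (hT.kp V _ l1 k1)
    have c2 := hT.c1.pow V _ (r + 1) l1
    obtain ⟨S, i, hi, cS, -, q⟩ : ∃ (S : Mf (d + 2)) (i : S.X → V.X)
        (hi : HolM (d + 2) (d + 1 + 2) i), Cp S ∧ T.Kc S (T.pull hi _) ∧
        ∀ z, T.int V (_ ^ 1 * z) = T.int S (T.pull hi z) :=
      lef hT (d + 1) 1 V _ hV (c2 ▸ hT.po.smul _ (by positivity) k1)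
        ⟨_, lb_pow l1 _, hr _ r.le_succ, rfl⟩
    have k0 : (0 : ℝ) < ((r + 1 : ℕ) : ℝ) * (k + 1) := by positivity
    have q' : ∀ a b, T.int S (T.pull hi a * T.pull hi b * (l.map (T.pull hi)).prod) =
        ((r + 1 : ℕ) : ℝ) * (k + 1) * T.int V (a * b * ((T.c1 V W +
          (1 / ((k : ℝ) + 1)) • T.c1 V A) * l.prod)) := fun a b => by
      rw [← map_list_prod, ← map_mul, ← map_mul, ← q, pow_one, c2, c1, e, mul_left_comm]
      simp only [add_mul, mul_add, smul_mul_assoc, mul_smul_comm, map_add, map_smul, smul_eq_mul,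
        Nat.cast_succ k]
      field_simp
    have := ih S (l.map (T.pull hi)) _ _ cS (by simpa using hl) (fun x hx => by
      obtain ⟨y, k, rfl⟩ := List.mem_map.1 hx
      exact (h y (by simp [k])).pull hT hi) (t1_pull hT hu hi) (t1_pull hT hv hi)
      (by rw [q']; exact mul_pos k0 hk)
    rw [q', q', q'] at this
    refine le_of_mul_le_mul_left ?_ (mul_pos k0 k0)
    linarith

/-- **MIX** -/
theorem mix (hV : Cp V) (hy : Mz T V y) (hu : T1 T V u) (hv : T1 T V v)
    (h0 : 0 < T.int V (u * u * y)) :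
    T.int V (u * u * y) * T.int V (v * v * y) ≤ T.int V (u * v * y) ^ 2 := by
  obtain ⟨l, h, rfl⟩ := Submonoid.exists_list_of_mem_closure hy
  obtain ⟨d, e⟩ : ∃ d, l.length = d := ⟨_, rfl⟩
  obtain rfl : n = d + 2 := by_contra fun k => h0.ne' (dg_int hT
    (dg_mul hT (dg_mul hT hu.2 hu.2) (dg_list hT l h)) (by omega))
  exact mix0 hT _ V l u v hV e h hu hv h0

/-- the kernel -/
theorem ker (hV : Cp V) (hy : Mz T V y) (hp : T1 T V p) (hv : T1 T V v) (ht : T1 T V t)
    (h0 : 0 < T.int V (p * p * y)) (h1 : T.int V (p * v * y) = 0) (h2 : 0 ≤ T.int V (v * v * y)) :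
    T.int V (v * t * y) = 0 := by
  have h3 : T.int V (v * v * y) = 0 := h2.antisymm' (by
    have := mix hT hV hy hp hv h0
    rw [h1] at this
    nlinarith)
  by_contra c
  have k : ∀ s : ℝ, T.int V (p * p * y) * (2 * s * T.int V (v * t * y) + T.int V (t * t * y)) ≤
      T.int V (p * t * y) ^ 2 := fun s => by
    have := mix hT hV hy hp (t1 hT s 1 v t hv ht) h0
    have e : (s • v + (1 : ℝ) • t) * (s • v + (1 : ℝ) • t) * y =
        (s * s) • (v * v * y) + (2 * s) • (v * t * y) + t * t * y := by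
      simp only [Algebra.smul_def, map_mul, map_ofNat, map_one]
      ring
    rw [e, one_smul, mul_add p, add_mul, mul_smul_comm, smul_mul_assoc] at this
    simpa only [map_add, map_smul, smul_eq_mul, h1, h3, mul_zero, zero_add] using this
  generalize T.int V (p * p * y) = A, T.int V (p * t * y) = B, T.int V (v * t * y) = D,
    T.int V (t * t * y) = E at *
  have := k ((B ^ 2 / A + 1 - E) / (2 * D))
  rw [show A * (2 * ((B ^ 2 / A + 1 - E) / (2 * D)) * D + E) = B ^ 2 + A by
    field_simp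
    ring] at this
  linarith

/-- orthogonal to an isotropic class which is not in the kernel -/
theorem iso (hV : Cp V) (hy : Mz T V y) (hx : T1 T V x) (hz : T1 T V z) (ht : T1 T V t)
    (h1 : T.int V (z * z * y) = 0) (h2 : T.int V (x * z * y) = 0) (h3 : T.int V (z * t * y) ≠ 0) :
    T.int V (x * x * y) ≤ 0 := not_lt.1 fun k => h3 (ker hT hV hy hx hz ht k h2 h1.ge)

/-- isotropic classes are proportional -/
theorem prp (hV : Cp V) (hy : Mz T V y) (hx : T1 T V x) (hz : T1 T V z) (ht : T1 T V t)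
    (ht' : T1 T V t') (h1 : T.int V (x * x * y) = 0) (h2 : T.int V (x * z * y) = 0)
    (h3 : T.int V (z * z * y) = 0) :
    T.int V (x * t * y) * T.int V (z * t' * y) = T.int V (x * t' * y) * T.int V (z * t * y) :=
  alg ((T.int V).comp (LinearMap.mulRight ℝ y)) (t1 hT) (fun _ _ => mix hT hV hy) hx hz ht ht' h1
    h2 h3

end Vale.Agent.P270F.Tk
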